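import Mathlib

/-!
# P042 (digit statistics): row COUNT

Integers up to `N` that avoid, at all scales, a pattern of `k` digits at the positions
`i, 2 i, ..., k i` are at most `C * N ^ θ`, `θ < 1`.
-/

open Finset

namespace Vale.Agent.P042.R2.H175

/-- functions which avoid a pattern on each of a family of disjoint blocks of size `k` -/
theorem avoid_blocks {ι α σ : Type*} [Fintype ι] [DecidableEq ι] [Fintype α] [DecidableEq α]
    [DecidableEq σ] {k : ℕ} (pos : σ → Fin k → ι) (v : Fin k → α)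
    (hpos : ∀ s s' j j', pos s j = pos s' j' → s = s' ∧ j = j') (R : Finset σ) :
    (Fintype.card α ^ k) ^ #R * #{f : ι → α | ∀ s ∈ R, ∃ j, f (pos s j) ≠ v j} ≤
      (Fintype.card α ^ k - 1) ^ #R * Fintype.card α ^ Fintype.card ι := by
  classical
  induction R using Finset.induction_on with
  | empty => simp
  | insert s₀ R hs₀ ih =>
    rw [card_insert_of_notMem hs₀]
    set a := Fintype.card α ^ k with ha
    set F : Finset (ι → α) := {f : ι → α | ∀ s ∈ R, ∃ j, f (pos s j) ≠ v j} with hF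
    have hF' : ({f : ι → α | ∀ s ∈ insert s₀ R, ∃ j, f (pos s j) ≠ v j} : Finset (ι → α)) =
        F.filter (fun f => ¬ ∀ j, f (pos s₀ j) = v j) := by
      ext f
      simp only [hF, mem_filter, mem_univ, true_and, forall_mem_insert, not_forall, ne_eq]
      tauto
    rw [hF']
    set D : Finset (ι → α) := F.filter (fun f => ∀ j, f (pos s₀ j) = v j) with hD
    set E : Finset (ι → α) := F.filter (fun f => ¬ ∀ j, f (pos s₀ j) = v j) with hE
    have hsum : #D + #E = #F := card_filter_add_card_filter_not _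
    have hinj : Function.Injective (pos s₀) := fun j j' h => (hpos _ _ _ _ h).2
    have hle : #F ≤ #D * a := by
      have h1 : #(D ×ˢ (univ : Finset (Fin k → α))) = #D * a := by
        rw [card_product, card_univ, Fintype.card_fun, Fintype.card_fin]
      rw [← h1]
      refine card_le_card_of_injOn
        (fun f => (Function.extend (pos s₀) v f, fun j => f (pos s₀ j))) ?_ ?_
      · intro f hf
        simp only [coe_product, Set.mem_prod, mem_coe, mem_univ, and_true, hD, mem_filter,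
          hF, true_and]
        refine ⟨fun s hs => ?_, fun j => hinj.extend_apply v f j⟩
        obtain ⟨j, hj⟩ := (mem_filter.1 hf).2 s hs
        refine ⟨j, ?_⟩
        rw [Function.extend_apply']
        · exact hj
        · rintro ⟨j', hj'⟩
          have := (hpos _ _ _ _ hj').1
          subst this
          exact hs₀ hs
      · intro f _ g _ hfg
        simp only [Prod.mk.injEq] at hfg
        obtain ⟨h1, h2⟩ := hfg
        funext x
        by_cases hx : ∃ j, pos s₀ j = x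
        · obtain ⟨j, rfl⟩ := hx
          exact congrFun h2 j
        · have := congrFun h1 x
          rwa [Function.extend_apply' _ _ _ hx, Function.extend_apply' _ _ _ hx] at this
    have key : a * #E ≤ (a - 1) * #F := by
      have h2 : a * #E + a * #D = a * #F := by rw [← hsum]; ring
      have h3 : (a - 1) * #F = a * #F - #F := by rw [Nat.sub_mul, one_mul]
      rw [h3]
      have h4 : #D * a = a * #D := mul_comm _ _
      omega
    calc a ^ (#R + 1) * #E = a ^ #R * (a * #E) := by ring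
      _ ≤ a ^ #R * ((a - 1) * #F) := Nat.mul_le_mul_left _ key
      _ = (a - 1) * (a ^ #R * #F) := by ring
      _ ≤ (a - 1) * ((a - 1) ^ #R * Fintype.card α ^ Fintype.card ι) :=
          Nat.mul_le_mul_left _ ih
      _ = (a - 1) ^ (#R + 1) * Fintype.card α ^ Fintype.card ι := by ring

/-- the lowest `P` digits determine the residue modulo `β ^ P` -/
theorem mod_pow_eq {β : ℕ} : ∀ (P m m' : ℕ), (∀ t < P, m / β ^ t % β = m' / β ^ t % β) →
    m % β ^ P = m' % β ^ P
  | 0, m, m', _ => by simp [Nat.mod_one]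
  | P + 1, m, m', h => by
    rw [Nat.mod_pow_succ, Nat.mod_pow_succ,
      mod_pow_eq P m m' fun t ht => h t (by omega), h P (by omega)]

/-- the counting inequality, for `P` low digits and `S` blocks -/
theorem count_nat {β k : ℕ} (hβ : 2 ≤ β) (hk : 1 ≤ k) {v : ℕ → ℕ} (hv : ∀ j, v j < β)
    (N P S : ℕ) (hS : k * (k + 1) * S ≤ P) (B : Finset ℕ)
    (hB : ∀ n ∈ B, n / β ^ P < N / β ^ P)
    (hB' : ∀ n ∈ B, ∀ i : ℕ, 1 ≤ i → k * i < P →
      ∃ j, 1 ≤ j ∧ j ≤ k ∧ n / β ^ (j * i) % β ≠ v j) :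
    (β ^ k) ^ S * #B ≤ (β ^ k - 1) ^ S * N := by
  classical
  have hβ0 : 0 < β := by omega
  have hlt : ∀ (s : Fin S), k * (1 + (k + 1) * s) < P := by
    intro s
    have h1 : (s : ℕ) + 1 ≤ S := s.2
    have h2 : k * (k + 1) * ((s : ℕ) + 1) ≤ k * (k + 1) * S := Nat.mul_le_mul_left _ h1
    nlinarith
  have hlt' : ∀ (s : Fin S) (j : Fin k), ((j : ℕ) + 1) * (1 + (k + 1) * s) < P := by
    intro s j
    have h1 : (j : ℕ) + 1 ≤ k := j.2
    exact lt_of_le_of_lt (Nat.mul_le_mul_right _ h1) (hlt s)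
  set pos : Fin S → Fin k → Fin P := fun s j => ⟨((j : ℕ) + 1) * (1 + (k + 1) * s), hlt' s j⟩
    with hposdef
  set v' : Fin k → Fin β := fun j => ⟨v (j + 1), hv _⟩ with hv'
  have hpos : ∀ s s' j j', pos s j = pos s' j' → s = s' ∧ j = j' := by
    intro s s' j j' h
    have h1 : ((j : ℕ) + 1) * (1 + (k + 1) * s) = ((j' : ℕ) + 1) * (1 + (k + 1) * s') := by
      simpa [hposdef] using h
    have hj : (j : ℕ) + 1 < k + 1 := by have := j.2; omega
    have hj' : (j' : ℕ) + 1 < k + 1 := by have := j'.2; omega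
    have h2 : (((j : ℕ) + 1) * (1 + (k + 1) * s)) % (k + 1) = (j : ℕ) + 1 := by
      rw [show ((j : ℕ) + 1) * (1 + (k + 1) * s) = ((j : ℕ) + 1) + (k + 1) * (((j : ℕ) + 1) * s)
        by ring, Nat.add_mul_mod_self_left, Nat.mod_eq_of_lt hj]
    have h3 : (((j' : ℕ) + 1) * (1 + (k + 1) * s')) % (k + 1) = (j' : ℕ) + 1 := by
      rw [show ((j' : ℕ) + 1) * (1 + (k + 1) * s') =
        ((j' : ℕ) + 1) + (k + 1) * (((j' : ℕ) + 1) * s')
        by ring, Nat.add_mul_mod_self_left, Nat.mod_eq_of_lt hj']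
    have h4 : (j : ℕ) + 1 = (j' : ℕ) + 1 := by rw [← h2, ← h3, h1]
    rw [h4] at h1
    have h5 : 1 + (k + 1) * (s : ℕ) = 1 + (k + 1) * s' :=
      Nat.eq_of_mul_eq_mul_left (Nat.succ_pos _) h1
    have h6 : (k + 1) * (s : ℕ) = (k + 1) * s' := by omega
    have h7 : (s : ℕ) = s' := Nat.eq_of_mul_eq_mul_left (Nat.succ_pos _) h6
    exact ⟨Fin.ext h7, Fin.ext (by omega)⟩
  have hav := avoid_blocks pos v' hpos univ
  rw [card_univ, Fintype.card_fin, Fintype.card_fin, Fintype.card_fin] at hav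
  set F : Finset (Fin P → Fin β) :=
    {f : Fin P → Fin β | ∀ s ∈ (univ : Finset (Fin S)), ∃ j, f (pos s j) ≠ v' j} with hF
  have hav' : (β ^ k) ^ S * #F ≤ (β ^ k - 1) ^ S * β ^ P := by
    convert hav
  have hcard : #B ≤ N / β ^ P * #F := by
    have h1 : #(range (N / β ^ P) ×ˢ F) = N / β ^ P * #F := by
      rw [card_product, card_range]
    rw [← h1]
    refine card_le_card_of_injOn
      (fun n => (n / β ^ P, fun t : Fin P => ⟨n / β ^ (t : ℕ) % β, Nat.mod_lt _ hβ0⟩)) ?_ ?_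
    · intro n hn
      have hn' : n ∈ B := hn
      simp only [coe_product, Set.mem_prod, mem_coe, mem_range]
      refine ⟨hB n hn', ?_⟩
      rw [hF, mem_filter]
      refine ⟨mem_univ _, fun s _ => ?_⟩
      obtain ⟨j, hj1, hjk, hj⟩ := hB' n hn' (1 + (k + 1) * s) (by omega) (hlt s)
      refine ⟨⟨j - 1, by omega⟩, fun h => hj ?_⟩
      have h2 := congrArg Fin.val h
      simp only [hposdef, hv'] at h2
      rwa [show j - 1 + 1 = j by omega] at h2
    · intro n _ m _ hnm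
      simp only [Prod.mk.injEq] at hnm
      obtain ⟨h1, h2⟩ := hnm
      have h3 : n % β ^ P = m % β ^ P := mod_pow_eq P n m fun t ht => by
        have := congrArg Fin.val (congrFun h2 ⟨t, ht⟩)
        simpa using this
      calc n = β ^ P * (n / β ^ P) + n % β ^ P := (Nat.div_add_mod _ _).symm
        _ = β ^ P * (m / β ^ P) + m % β ^ P := by rw [h1, h3]
        _ = m := Nat.div_add_mod _ _
  calc (β ^ k) ^ S * #B ≤ (β ^ k) ^ S * (N / β ^ P * #F) := Nat.mul_le_mul_left _ hcard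
    _ = N / β ^ P * ((β ^ k) ^ S * #F) := by ring
    _ ≤ N / β ^ P * ((β ^ k - 1) ^ S * β ^ P) := Nat.mul_le_mul_left _ hav'
    _ = (β ^ k - 1) ^ S * (N / β ^ P * β ^ P) := by ring
    _ ≤ (β ^ k - 1) ^ S * N := Nat.mul_le_mul_left _ (Nat.div_mul_le_self _ _)

/-- row COUNT -/
theorem count {β k : ℕ} (hβ : 2 ≤ β) (hk : 1 ≤ k) {v : ℕ → ℕ} (hv : ∀ j, v j < β) :
    ∃ θ C : ℝ, 0 < θ ∧ θ < 1 ∧ 0 < C ∧ ∀ (N : ℕ) (A : Set ℕ), 1 ≤ N →
      (∀ n ∈ A, 1 ≤ n ∧ n ≤ N) →
      (∀ n ∈ A, ∀ i P : ℕ, 1 ≤ i → k * i < P → n / β ^ P < N / β ^ P →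
        ∃ j, 1 ≤ j ∧ j ≤ k ∧ n / β ^ (j * i) % β ≠ v j) →
      (A.ncard : ℝ) ≤ C * (N : ℝ) ^ θ := by
  classical
  have hβ1 : (1 : ℝ) < β := by exact_mod_cast (by omega : 1 < β)
  have hβ0 : (0 : ℝ) < β := by linarith
  have hlogβ : 0 < Real.log β := Real.log_pos hβ1
  have hβk : 2 ≤ β ^ k := le_trans hβ (by
    calc β = β ^ 1 := (pow_one β).symm
      _ ≤ β ^ k := Nat.pow_le_pow_right (by omega) hk)
  have hβkR : (2 : ℝ) ≤ (β : ℝ) ^ k := by exact_mod_cast hβk
  set q : ℝ := ((β : ℝ) ^ k - 1) / (β : ℝ) ^ k with hq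
  have hq0 : 0 < q := by rw [hq]; apply div_pos <;> linarith
  have hq1 : q < 1 := by rw [hq, div_lt_one (by linarith)]; linarith
  have hq2 : 1 / 2 ≤ q := by rw [hq, le_div_iff₀ (by linarith)]; linarith
  have hlogq : Real.log q < 0 := Real.log_neg hq0 hq1
  set K : ℕ := 2 * (k * (k + 1)) with hK
  have hK0 : 0 < K := by positivity
  have hK0R : (0 : ℝ) < K := by exact_mod_cast hK0
  set ε : ℝ := - Real.log q / (K * Real.log β) with hε
  have hε0 : 0 < ε := by rw [hε]; apply div_pos (by linarith) (by positivity)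
  have hεeq : ε * (K * Real.log β) = - Real.log q := by
    rw [hε, div_mul_cancel₀]; positivity
  refine ⟨max (1 / 2) (1 - ε), 3, lt_of_lt_of_le (by norm_num) (le_max_left _ _),
    max_lt (by norm_num) (by linarith), by norm_num, fun N A hN hA hA' => ?_⟩
  have hNR : (1 : ℝ) ≤ N := by exact_mod_cast hN
  have hN0 : (0 : ℝ) < N := by linarith
  set T : ℕ := Nat.log β N with hT
  have hT1 : β ^ T ≤ N := Nat.pow_log_le_self β (by omega)
  have hT2 : N < β ^ (T + 1) := Nat.lt_pow_succ_log_self (by omega) N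
  set P : ℕ := T / 2 with hP
  set S : ℕ := P / (k * (k + 1)) with hS
  have hkk : 0 < k * (k + 1) := by positivity
  have hSP : k * (k + 1) * S ≤ P := Nat.mul_div_le P _
  have hPS : P < k * (k + 1) * (S + 1) := Nat.lt_mul_div_succ P hkk
  have hTK : T + 1 ≤ K * (S + 1) := by
    have h1 : T + 1 ≤ 2 * (P + 1) := by omega
    have h2 : 2 * (P + 1) ≤ 2 * (k * (k + 1) * (S + 1)) := by omega
    calc T + 1 ≤ 2 * (P + 1) := h1
      _ ≤ 2 * (k * (k + 1) * (S + 1)) := h2
      _ = K * (S + 1) := by rw [hK]; ring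
  -- the two parts
  set A' : Finset ℕ := (range (N + 1)).filter (· ∈ A) with hA'def
  set B₁ : Finset ℕ := A'.filter (fun n => n / β ^ P = N / β ^ P) with hB₁
  set B₂ : Finset ℕ := A'.filter (fun n => ¬ n / β ^ P = N / β ^ P) with hB₂
  have hAA' : A.ncard ≤ #A' := by
    rw [← Set.ncard_coe_finset]
    refine Set.ncard_le_ncard (fun n hn => ?_) (Finset.finite_toSet _)
    simp only [hA'def, coe_filter, mem_range, Set.mem_ofPred_eq]
    exact ⟨by have := (hA n hn).2; omega, hn⟩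
  have hsum : #B₁ + #B₂ = #A' := card_filter_add_card_filter_not _
  have hcard1 : #B₁ ≤ β ^ P := by
    have hpos : 0 < β ^ P := by positivity
    calc #B₁ ≤ #(range (β ^ P)) := by
          refine card_le_card_of_injOn (fun n => n % β ^ P) ?_ ?_
          · intro n _
            simp only [coe_range, Set.mem_Iio]
            exact Nat.mod_lt _ hpos
          · intro n hn m hm hnm
            have h1 : n / β ^ P = N / β ^ P := (mem_filter.1 hn).2
            have h2 : m / β ^ P = N / β ^ P := (mem_filter.1 hm).2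
            have h3 : n % β ^ P = m % β ^ P := hnm
            calc n = β ^ P * (n / β ^ P) + n % β ^ P := (Nat.div_add_mod _ _).symm
              _ = β ^ P * (m / β ^ P) + m % β ^ P := by rw [h1, h2, h3]
              _ = m := Nat.div_add_mod _ _
      _ = β ^ P := card_range _
  have hcard2 : (β ^ k) ^ S * #B₂ ≤ (β ^ k - 1) ^ S * N := by
    have hlt : ∀ n ∈ B₂, n / β ^ P < N / β ^ P := by
      intro n hn
      have h1 := mem_filter.1 hn
      have h2 := mem_filter.1 h1.1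
      have h3 : n ≤ N := by have := mem_range.1 h2.1; omega
      exact lt_of_le_of_ne (Nat.div_le_div_right h3) h1.2
    refine count_nat hβ hk hv N P S hSP B₂ hlt fun n hn i hi hiP => ?_
    exact hA' n (mem_filter.1 (mem_filter.1 hn).1).2 i P hi hiP (hlt n hn)
  -- real bounds
  have hb1 : (#B₁ : ℝ) ≤ (N : ℝ) ^ (1 / 2 : ℝ) := by
    have h1 : (#B₁ : ℝ) ≤ (β : ℝ) ^ P := by exact_mod_cast hcard1
    have h2 : ((β : ℝ) ^ P) ^ 2 ≤ N := by
      have h3 : (β ^ P) ^ 2 ≤ N := by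
        calc (β ^ P) ^ 2 = β ^ (P * 2) := by rw [pow_mul]
          _ ≤ β ^ T := Nat.pow_le_pow_right (by omega) (by omega)
          _ ≤ N := hT1
      exact_mod_cast h3
    rw [← Real.sqrt_eq_rpow]
    exact h1.trans (Real.le_sqrt_of_sq_le h2)
  have hb2 : (#B₂ : ℝ) ≤ N * q ^ S := by
    have h1 : ((β : ℝ) ^ k) ^ S * (#B₂ : ℝ) ≤ ((β : ℝ) ^ k - 1) ^ S * N := by
      have h2 : (((β ^ k) ^ S * #B₂ : ℕ) : ℝ) ≤ (((β ^ k - 1) ^ S * N : ℕ) : ℝ) := by
        exact_mod_cast hcard2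
      push_cast [Nat.cast_sub (by omega : 1 ≤ β ^ k)] at h2
      exact h2
    have h3 : (0 : ℝ) < ((β : ℝ) ^ k) ^ S := by positivity
    rw [hq, div_pow, mul_div_assoc', le_div_iff₀ h3]
    linarith
  have hNε : (N : ℝ) ^ ε ≤ (q ^ (S + 1))⁻¹ := by
    have h1 : (N : ℝ) ≤ (β : ℝ) ^ (K * (S + 1)) := by
      have h2 : N ≤ β ^ (K * (S + 1)) :=
        hT2.le.trans (Nat.pow_le_pow_right (by omega) hTK)
      exact_mod_cast h2
    calc (N : ℝ) ^ ε ≤ ((β : ℝ) ^ (K * (S + 1))) ^ ε := Real.rpow_le_rpow hN0.le h1 hε0.le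
      _ = (q ^ (S + 1))⁻¹ := by
        rw [← Real.rpow_natCast, ← Real.rpow_mul hβ0.le, Real.rpow_def_of_pos hβ0,
          ← Real.rpow_natCast q, ← Real.rpow_neg hq0.le, Real.rpow_def_of_pos hq0]
        congr 1
        push_cast
        calc Real.log β * ((K : ℝ) * (S + 1) * ε) = ε * (K * Real.log β) * (S + 1) := by ring
          _ = Real.log q * -(S + 1) := by rw [hεeq]; ring
  have hqS : q ^ S ≤ 2 * (N : ℝ) ^ (-ε) := by
    rw [Real.rpow_neg hN0.le]
    have h1 : 0 < (N : ℝ) ^ ε := Real.rpow_pos_of_pos hN0 _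
    have h2 : 0 < q ^ S := by positivity
    rw [← div_eq_mul_inv, le_div_iff₀ h1]
    calc q ^ S * (N : ℝ) ^ ε ≤ q ^ S * (q ^ (S + 1))⁻¹ := by gcongr
      _ = q⁻¹ := by rw [pow_succ]; field_simp
      _ ≤ 2 := by
        rw [inv_le_comm₀ hq0 (by norm_num)]
        linarith
  have hb3 : (N : ℝ) * q ^ S ≤ 2 * (N : ℝ) ^ (1 - ε) := by
    have h1 : (N : ℝ) ^ (1 - ε) = N * (N : ℝ) ^ (-ε) := by
      rw [sub_eq_add_neg, Real.rpow_add hN0, Real.rpow_one]
    rw [h1]
    calc (N : ℝ) * q ^ S ≤ N * (2 * (N : ℝ) ^ (-ε)) := by gcongr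
      _ = 2 * (N * (N : ℝ) ^ (-ε)) := by ring
  have hm1 : (N : ℝ) ^ (1 / 2 : ℝ) ≤ (N : ℝ) ^ max (1 / 2) (1 - ε) :=
    Real.rpow_le_rpow_of_exponent_le hNR (le_max_left _ _)
  have hm2 : (N : ℝ) ^ (1 - ε) ≤ (N : ℝ) ^ max (1 / 2) (1 - ε) :=
    Real.rpow_le_rpow_of_exponent_le hNR (le_max_right _ _)
  have hAR : (A.ncard : ℝ) ≤ #B₁ + #B₂ := by
    have : A.ncard ≤ #B₁ + #B₂ := by omega
    exact_mod_cast this
  linarith

end Vale.Agent.P042.R2.H175
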